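import Vale.Agent.P236.H271.Dual

/-!
# P236: coassociativity and counit of `P_*` and of the dual Steenrod algebra `A_*` at the prime 3
-/

namespace Vale.Agent.P236.H271

open scoped TensorProduct

/-! ### the coproduct of `P_*` -/

theorem ΔP_xi (m : ℕ) : ΔP (xi m) =
    ∑ i ∈ Finset.range (m + 1), (xi (m - i) ^ 3 ^ i) ⊗ₜ[ZMod 3] (xi i) := by
  cases m with
  | zero => simp [xi, Algebra.TensorProduct.one_def]
  | succ n => simp [xi, ΔP]

theorem nontrivial_PP : Nontrivial (PS ⊗[ZMod 3] PS) :=
  (Algebra.TensorProduct.lmul' (ZMod 3) (S := PS)).toRingHom.domain_nontrivial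

theorem charP_PP : CharP (PS ⊗[ZMod 3] PS) 3 := by
  have := nontrivial_PP
  exact charP_of_injective_algebraMap (algebraMap (ZMod 3) (PS ⊗[ZMod 3] PS)).injective 3

theorem ΔP_xi_pow (m i : ℕ) : ΔP (xi m ^ 3 ^ i) =
    ∑ k ∈ Finset.range (m + 1), (xi (m - k) ^ 3 ^ (k + i)) ⊗ₜ[ZMod 3] (xi k ^ 3 ^ i) := by
  have := charP_PP
  have : ExpChar (PS ⊗[ZMod 3] PS) 3 := ExpChar.prime Nat.prime_three
  rw [map_pow, ΔP_xi, sum_pow_char_pow]
  refine Finset.sum_congr rfl fun k _ => ?_
  rw [Algebra.TensorProduct.tmul_pow, ← pow_mul, ← pow_add]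

theorem tri {M : Type*} [AddCommMonoid M] (m : ℕ) (f : ℕ → ℕ → M) :
    ∑ j ∈ Finset.range (m + 1), ∑ k ∈ Finset.range (m - j + 1), f (j + k) j =
      ∑ i ∈ Finset.range (m + 1), ∑ j ∈ Finset.range (i + 1), f i j := by
  rw [Finset.sum_sigma', Finset.sum_sigma']
  refine Finset.sum_bij' (fun p _ => ⟨p.1 + p.2, p.1⟩) (fun p _ => ⟨p.2, p.1 - p.2⟩) ?_ ?_ ?_ ?_ ?_
  · rintro ⟨a, b⟩ h
    simp only [Finset.mem_sigma, Finset.mem_range] at h ⊢
    omega
  · rintro ⟨a, b⟩ h
    simp only [Finset.mem_sigma, Finset.mem_range] at h ⊢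
    omega
  · rintro ⟨a, b⟩ h
    simp
  · rintro ⟨a, b⟩ h
    simp only [Finset.mem_sigma, Finset.mem_range] at h
    have : b + (a - b) = a := by omega
    simp [this]
  · rintro ⟨a, b⟩ h
    rfl

/-- coassociativity of `P_*` -/
theorem ΔP_coassoc : (TensorProduct.assoc (ZMod 3) PS PS PS).toLinearMap ∘ₗ
    (ΔP.toLinearMap.rTensor PS) ∘ₗ ΔP.toLinearMap =
      (ΔP.toLinearMap.lTensor PS) ∘ₗ ΔP.toLinearMap := by
  have h : ((Algebra.TensorProduct.assoc (ZMod 3) (ZMod 3) (ZMod 3) PS PS PS).toAlgHom.comp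
      ((Algebra.TensorProduct.map ΔP (AlgHom.id (ZMod 3) PS)).comp ΔP)) =
      (Algebra.TensorProduct.map (AlgHom.id (ZMod 3) PS) ΔP).comp ΔP := by
    apply MvPolynomial.algHom_ext
    intro n
    have e : (MvPolynomial.X n : PS) = xi (n + 1) := rfl
    rw [e]
    simp only [AlgHom.comp_apply, ΔP_xi (n + 1), map_sum]
    have hL : ∀ i ∈ Finset.range (n + 1 + 1),
        (Algebra.TensorProduct.assoc (ZMod 3) (ZMod 3) (ZMod 3) PS PS PS).toAlgHom
          ((Algebra.TensorProduct.map ΔP (AlgHom.id (ZMod 3) PS))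
            ((xi (n + 1 - i) ^ 3 ^ i) ⊗ₜ[ZMod 3] (xi i))) =
        ∑ k ∈ Finset.range (n + 1 - i + 1),
          (xi (n + 1 - (i + k)) ^ 3 ^ (i + k)) ⊗ₜ[ZMod 3]
            ((xi (i + k - i) ^ 3 ^ i) ⊗ₜ[ZMod 3] (xi i)) := by
      intro i _
      rw [Algebra.TensorProduct.map_tmul, ΔP_xi_pow, TensorProduct.sum_tmul, map_sum]
      refine Finset.sum_congr rfl fun k _ => ?_
      have e1 : n + 1 - (i + k) = n + 1 - i - k := by omega
      have e2 : i + k - i = k := by omega
      rw [e1, e2, add_comm i k]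
      rfl
    rw [Finset.sum_congr rfl hL]
    rw [tri (n + 1) (fun i j => (xi (n + 1 - i) ^ 3 ^ i) ⊗ₜ[ZMod 3]
            ((xi (i - j) ^ 3 ^ j) ⊗ₜ[ZMod 3] (xi j)))]
    refine Finset.sum_congr rfl fun i _ => ?_
    rw [Algebra.TensorProduct.map_tmul, ΔP_xi, TensorProduct.tmul_sum]
    rfl
  have h2 := congrArg AlgHom.toLinearMap h
  exact h2

/-- the counit of `P_*` -/
noncomputable def epP : PS →ₐ[ZMod 3] ZMod 3 := MvPolynomial.aeval fun _ => 0

theorem epP_xi (n : ℕ) : epP (xi n) = if n = 0 then 1 else 0 := by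
  cases n with
  | zero => simp [xi]
  | succ n => simp [xi, epP]

theorem epP_left : epP.toLinearMap.rTensor PS ∘ₗ ΔP.toLinearMap =
    TensorProduct.mk (ZMod 3) (ZMod 3) PS 1 := by
  have h : (Algebra.TensorProduct.map epP (AlgHom.id (ZMod 3) PS)).comp ΔP =
      Algebra.TensorProduct.includeRight := by
    apply MvPolynomial.algHom_ext
    intro n
    have e : (MvPolynomial.X n : PS) = xi (n + 1) := rfl
    rw [e, AlgHom.comp_apply, ΔP_xi, map_sum, Finset.sum_range_succ, Finset.sum_eq_zero]
    · simp [xi]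
    · intro i hi
      have : n + 1 - i ≠ 0 := by
        have := Finset.mem_range.1 hi
        omega
      rw [Algebra.TensorProduct.map_tmul, map_pow, epP_xi, if_neg this,
        zero_pow (by positivity), TensorProduct.zero_tmul]
  exact congrArg AlgHom.toLinearMap h

theorem epP_right : epP.toLinearMap.lTensor PS ∘ₗ ΔP.toLinearMap =
    (TensorProduct.mk (ZMod 3) PS (ZMod 3)).flip 1 := by
  have h : (Algebra.TensorProduct.map (AlgHom.id (ZMod 3) PS) epP).comp ΔP =
      Algebra.TensorProduct.includeLeft := by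
    apply MvPolynomial.algHom_ext
    intro n
    have e : (MvPolynomial.X n : PS) = xi (n + 1) := rfl
    rw [e, AlgHom.comp_apply, ΔP_xi, map_sum, Finset.sum_range_succ', Finset.sum_eq_zero]
    · simp [xi]
    · intro i hi
      rw [Algebra.TensorProduct.map_tmul, epP_xi, if_neg (Nat.succ_ne_zero i),
        TensorProduct.tmul_zero]
  exact congrArg AlgHom.toLinearMap h

/-! ### the coproduct of `A_*` -/

/-- two linear maps on `A_*` which agree on `P_*` and behave in the same way under
left multiplication with `τ_n` are equal -/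
theorem AS_hom_ext {M : Type*} [AddCommMonoid M] [Module (ZMod 3) M] (f g : AS →ₗ[ZMod 3] M)
    (h0 : ∀ x, f (inc x) = g (inc x))
    (h1 : ∀ n a, f a = g a → f (tau n * a) = g (tau n * a)) : f = g := by
  have key : ∀ t : ET, ∀ a : AS, f a = g a →
      f ((t ⊗ₜ[ZMod 3] (1 : PS)) * a) = g ((t ⊗ₜ[ZMod 3] (1 : PS)) * a) := by
    intro t
    induction t using ExteriorAlgebra.induction with
    | algebraMap r =>
      intro a ha
      have e : ((algebraMap (ZMod 3) ET r) ⊗ₜ[ZMod 3] (1 : PS)) = algebraMap (ZMod 3) AS r := rfl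
      rw [e, ← Algebra.smul_def, map_smul, map_smul, ha]
    | ι v =>
      intro a ha
      have e : (ExteriorAlgebra.ι (ZMod 3) v) ⊗ₜ[ZMod 3] (1 : PS) =
          ∑ n ∈ v.support, v n • tau n := by
        conv_lhs => rw [← Finsupp.sum_single v]
        rw [Finsupp.sum, map_sum, TensorProduct.sum_tmul]
        refine Finset.sum_congr rfl fun n _ => ?_
        have : Finsupp.single n (v n) = v n • Finsupp.single n (1 : ZMod 3) := by simp
        rw [this, map_smul, tau, TensorProduct.smul_tmul']
      rw [e, Finset.sum_mul, map_sum, map_sum]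
      refine Finset.sum_congr rfl fun n _ => ?_
      rw [smul_mul_assoc, map_smul, map_smul, h1 n a ha]
    | mul s t hs ht =>
      intro a ha
      have e : ((s * t) ⊗ₜ[ZMod 3] (1 : PS)) =
          (s ⊗ₜ[ZMod 3] (1 : PS)) * (t ⊗ₜ[ZMod 3] (1 : PS)) := by
        rw [Algebra.TensorProduct.tmul_mul_tmul, mul_one]
      rw [e, mul_assoc]
      exact hs _ (ht _ ha)
    | add s t hs ht =>
      intro a ha
      rw [TensorProduct.add_tmul, add_mul, map_add, map_add, hs a ha, ht a ha]
  refine TensorProduct.ext' fun t x => ?_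
  have e : (t ⊗ₜ[ZMod 3] x : AS) = (t ⊗ₜ[ZMod 3] (1 : PS)) * inc x := by
    simp [inc, Algebra.TensorProduct.tmul_mul_tmul]
  rw [e]
  exact key t _ (h0 x)

/-- the left multiplication with elements of `P_* ⊗ P_*` on `A_* ⊗ A_*` -/
noncomputable def MI : PS ⊗[ZMod 3] PS →ₗ[ZMod 3] Module.End (ZMod 3) (AS ⊗[ZMod 3] AS) :=
  TensorProduct.lift (LinearMap.mk₂ (ZMod 3) (fun x y => lmE (inc x) (inc y))
    (fun x x' y => by rw [map_add, lmE_add_left])
    (fun c x y => by
      refine TensorProduct.ext' fun a b => ?_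
      rw [map_smul, lmE_tmul, LinearMap.smul_apply, lmE_tmul, smul_mul_assoc,
        TensorProduct.smul_tmul'])
    (fun x y y' => by rw [map_add, lmE_add_right])
    (fun c x y => by
      refine TensorProduct.ext' fun a b => ?_
      rw [map_smul, lmE_tmul, LinearMap.smul_apply, lmE_tmul, smul_mul_assoc,
        TensorProduct.tmul_smul]))

theorem MI_tmul (x y : PS) : MI (x ⊗ₜ y) = lmE (inc x) (inc y) := by
  simp [MI]

theorem MI_map (u v : PS ⊗[ZMod 3] PS) :
    MI u (TensorProduct.map inc.toLinearMap inc.toLinearMap v) =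
      TensorProduct.map inc.toLinearMap inc.toLinearMap (u * v) := by
  induction u using TensorProduct.induction_on with
  | zero => simp
  | add u w hu hw => rw [map_add, LinearMap.add_apply, add_mul, map_add, hu, hw]
  | tmul x y =>
    induction v using TensorProduct.induction_on with
    | zero => simp
    | add z w hz hw => rw [map_add, map_add, mul_add, map_add, hz, hw]
    | tmul c d =>
      rw [MI_tmul, TensorProduct.map_tmul, lmE_tmul, Algebra.TensorProduct.tmul_mul_tmul,
        TensorProduct.map_tmul]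
      simp only [AlgHom.toLinearMap_apply, map_mul]

theorem lTau_MI (n : ℕ) (u : PS ⊗[ZMod 3] PS) (z : AS ⊗[ZMod 3] AS) :
    lTau n (MI u z) = MI u (lTau n z) := by
  induction u using TensorProduct.induction_on with
  | zero => simp
  | add u v hu hv => simp only [map_add, LinearMap.add_apply, hu, hv]
  | tmul x y =>
    rw [MI_tmul]
    induction z using TensorProduct.induction_on with
    | zero => simp
    | add z w hz hw => simp only [map_add, hz, hw]
    | tmul c d =>
      simp only [lTau, LinearMap.add_apply, LinearMap.sum_apply, lmE_tmul, lmO_tmul, map_add,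
        map_sum, one_mul, map_mul, sig_inc]
      congr 1
      · rw [← mul_assoc, ← inc_comm, mul_assoc]
      · refine Finset.sum_congr rfl fun i _ => ?_
        rw [← mul_assoc, ← mul_assoc (tau i), ← inc_comm y (tau i), ← mul_assoc (inc x),
          inc_comm x (inc _), mul_assoc (inc y)]

theorem ΔA_inc_mul (x : PS) (a : AS) : ΔA (inc x * a) = MI (ΔP x) (ΔA a) := by
  have h : ΔA ∘ₗ LinearMap.mulLeft (ZMod 3) (inc x) = MI (ΔP x) ∘ₗ ΔA := by
    apply AS_hom_ext
    · intro y
      simp only [LinearMap.comp_apply, LinearMap.mulLeft_apply]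
      rw [← map_mul, ΔA_inc, ΔA_inc, MI_map, map_mul]
    · intro n a ha
      simp only [LinearMap.comp_apply, LinearMap.mulLeft_apply] at ha ⊢
      rw [← mul_assoc, inc_comm, mul_assoc, ΔA_tau_mul, ha, ΔA_tau_mul, lTau_MI]
  exact LinearMap.congr_fun h a

/-- `σ ⊗ σ` -/
noncomputable def SS : AS ⊗[ZMod 3] AS →ₗ[ZMod 3] AS ⊗[ZMod 3] AS :=
  TensorProduct.map sig.toLinearMap sig.toLinearMap

theorem SS_tmul (a b : AS) : SS (a ⊗ₜ b) = sig a ⊗ₜ sig b := rfl

theorem sig_tau' (n : ℕ) : sig (tau n) = (-1 : ZMod 3) • tau n := by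
  rw [sig_tau, tau, TensorProduct.smul_tmul', neg_one_smul]

theorem SS_lTau (n : ℕ) (z : AS ⊗[ZMod 3] AS) :
    SS (lTau n z) = (-1 : ZMod 3) • lTau n (SS z) := by
  induction z using TensorProduct.induction_on with
  | zero => simp only [map_zero, smul_zero]
  | add z w hz hw => rw [map_add, map_add, hz, hw, map_add, map_add, smul_add]
  | tmul c d =>
    rw [SS_tmul]
    simp only [lTau, LinearMap.add_apply, LinearMap.sum_apply, lmE_tmul, lmO_tmul, map_add,
      map_sum, one_mul, SS_tmul, map_mul, sig_tau', sig_inc, smul_mul_assoc,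
      ← TensorProduct.smul_tmul', TensorProduct.tmul_smul, smul_add, Finset.smul_sum]

theorem ΔA_sig (a : AS) : ΔA (sig a) = SS (ΔA a) := by
  have h : ΔA ∘ₗ sig.toLinearMap = SS ∘ₗ ΔA := by
    apply AS_hom_ext
    · intro x
      simp only [LinearMap.comp_apply, AlgHom.toLinearMap_apply, sig_inc]
      rw [ΔA_inc]
      have : ∀ u : PS ⊗[ZMod 3] PS,
          SS (TensorProduct.map inc.toLinearMap inc.toLinearMap u) =
            TensorProduct.map inc.toLinearMap inc.toLinearMap u := by
        intro u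
        induction u using TensorProduct.induction_on with
        | zero => simp only [map_zero]
        | add u v hu hv => simp only [map_add, hu, hv]
        | tmul x y =>
          rw [TensorProduct.map_tmul, SS_tmul]
          simp only [AlgHom.toLinearMap_apply, sig_inc]
      exact (this (ΔP x)).symm
    · intro n a ha
      simp only [LinearMap.comp_apply, AlgHom.toLinearMap_apply] at ha ⊢
      rw [map_mul, sig_tau', smul_mul_assoc, map_smul, ΔA_tau_mul, ΔA_tau_mul, SS_lTau, ha]
  exact LinearMap.congr_fun h a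

/-- the operator `x ⊗ y ⊗ z ↦ Δ^2 τ_n * (x ⊗ y ⊗ z)` -/
noncomputable def N3 (n : ℕ) : Module.End (ZMod 3) (AS ⊗[ZMod 3] (AS ⊗[ZMod 3] AS)) :=
  TensorProduct.map (LinearMap.mulLeft (ZMod 3) (tau n)) LinearMap.id +
    ∑ i ∈ Finset.range (n + 1),
      TensorProduct.map ((LinearMap.mulLeft (ZMod 3) (inc (xi (n - i) ^ 3 ^ i))).comp
        sig.toLinearMap) (lTau i)

theorem lTensor_lTau (n : ℕ) (z : AS ⊗[ZMod 3] AS) :
    ΔA.lTensor AS (lTau n z) = N3 n (ΔA.lTensor AS z) := by
  induction z using TensorProduct.induction_on with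
  | zero => simp
  | add z w hz hw => rw [map_add, map_add, hz, hw, map_add, map_add]
  | tmul c d =>
    simp only [lTau, N3, LinearMap.add_apply, LinearMap.sum_apply, lmE_tmul, lmO_tmul, map_add,
      map_sum, one_mul, LinearMap.lTensor_tmul, TensorProduct.map_tmul, LinearMap.id_apply,
      LinearMap.comp_apply, LinearMap.mulLeft_apply, ΔA_tau_mul, AlgHom.toLinearMap_apply]

theorem MI_xi_pow (m i : ℕ) (a b : AS) : MI (ΔP (xi m ^ 3 ^ i)) (a ⊗ₜ b) =
    ∑ k ∈ Finset.range (m + 1), (inc (xi (m - k) ^ 3 ^ (k + i)) * a) ⊗ₜ[ZMod 3]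
      (inc (xi k ^ 3 ^ i) * b) := by
  have h := ΔP_xi_pow m i
  rw [h]
  simp only [map_sum, LinearMap.sum_apply, MI_tmul, lmE_tmul]

theorem assoc_sum {ι : Type*} (s : Finset ι) (a b : ι → AS) (c : AS) :
    TensorProduct.assoc (ZMod 3) AS AS AS ((∑ k ∈ s, a k ⊗ₜ[ZMod 3] b k) ⊗ₜ[ZMod 3] c) =
      ∑ k ∈ s, a k ⊗ₜ[ZMod 3] (b k ⊗ₜ[ZMod 3] c) := by
  rw [TensorProduct.sum_tmul]
  simp only [map_sum, TensorProduct.assoc_tmul]

theorem assoc_MI (n i : ℕ) (a b c : AS) : TensorProduct.assoc (ZMod 3) AS AS AS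
        (MI (ΔP (xi (n - i) ^ 3 ^ i)) (SS (a ⊗ₜ[ZMod 3] b)) ⊗ₜ[ZMod 3] c) =
        ∑ k ∈ Finset.range (n - i + 1),
          (inc (xi (n - (i + k)) ^ 3 ^ (i + k)) * sig a) ⊗ₜ[ZMod 3]
            ((inc (xi (i + k - i) ^ 3 ^ i) * sig b) ⊗ₜ[ZMod 3] c) := by
  have h1 : MI (ΔP (xi (n - i) ^ 3 ^ i)) (SS (a ⊗ₜ[ZMod 3] b)) =
      ∑ k ∈ Finset.range (n - i + 1), (inc (xi (n - i - k) ^ 3 ^ (k + i)) * sig a) ⊗ₜ[ZMod 3]
        (inc (xi k ^ 3 ^ i) * sig b) := MI_xi_pow (n - i) i (sig a) (sig b)
  rw [h1]
  refine (assoc_sum _ _ _ _).trans (Finset.sum_congr rfl fun k _ => ?_)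
  have e1 : n - (i + k) = n - i - k := by omega
  have e2 : i + k - i = k := by omega
  rw [e1, e2, add_comm i k]

theorem N3_assoc (n : ℕ) (w : AS ⊗[ZMod 3] AS) (d : AS) :
    TensorProduct.assoc (ZMod 3) AS AS AS (lTau n w ⊗ₜ[ZMod 3] d) +
      ∑ i ∈ Finset.range (n + 1), TensorProduct.assoc (ZMod 3) AS AS AS
        (MI (ΔP (xi (n - i) ^ 3 ^ i)) (SS w) ⊗ₜ[ZMod 3] (tau i * d)) =
      N3 n (TensorProduct.assoc (ZMod 3) AS AS AS (w ⊗ₜ[ZMod 3] d)) := by
  induction w using TensorProduct.induction_on with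
  | zero => simp
  | add z w hz hw =>
    simp only [map_add, TensorProduct.add_tmul, Finset.sum_add_distrib]
    rw [← hz, ← hw, add_add_add_comm]
  | tmul a b =>
    have hS : ∑ i ∈ Finset.range (n + 1), TensorProduct.assoc (ZMod 3) AS AS AS
        (MI (ΔP (xi (n - i) ^ 3 ^ i)) (SS (a ⊗ₜ[ZMod 3] b)) ⊗ₜ[ZMod 3] (tau i * d)) =
        ∑ i ∈ Finset.range (n + 1), ∑ j ∈ Finset.range (i + 1),
          (inc (xi (n - i) ^ 3 ^ i) * sig a) ⊗ₜ[ZMod 3]
            ((inc (xi (i - j) ^ 3 ^ j) * sig b) ⊗ₜ[ZMod 3] (tau j * d)) :=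
      (Finset.sum_congr rfl fun i _ => assoc_MI n i a b (tau i * d)).trans
        (tri n (fun i j => (inc (xi (n - i) ^ 3 ^ i) * sig a) ⊗ₜ[ZMod 3]
            ((inc (xi (i - j) ^ 3 ^ j) * sig b) ⊗ₜ[ZMod 3] (tau j * d))))
    refine (congrArg (fun t => TensorProduct.assoc (ZMod 3) AS AS AS
      (lTau n (a ⊗ₜ[ZMod 3] b) ⊗ₜ[ZMod 3] d) + t) hS).trans ?_
    simp only [N3, LinearMap.add_apply, LinearMap.sum_apply, TensorProduct.map_tmul,
      LinearMap.id_apply, LinearMap.comp_apply, LinearMap.mulLeft_apply, lTau, lmE_tmul, lmO_tmul,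
      TensorProduct.add_tmul, TensorProduct.sum_tmul, TensorProduct.tmul_add,
      TensorProduct.tmul_sum, map_add, map_sum, TensorProduct.assoc_tmul, one_mul,
      AlgHom.toLinearMap_apply, Finset.sum_add_distrib]
    exact add_assoc _ _ _

theorem rTensor_lTau (n : ℕ) (z : AS ⊗[ZMod 3] AS) :
    TensorProduct.assoc (ZMod 3) AS AS AS (ΔA.rTensor AS (lTau n z)) =
      N3 n (TensorProduct.assoc (ZMod 3) AS AS AS (ΔA.rTensor AS z)) := by
  induction z using TensorProduct.induction_on with
  | zero => simp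
  | add z w hz hw => simp only [map_add, hz, hw]
  | tmul c d =>
    rw [LinearMap.rTensor_tmul, ← N3_assoc]
    simp only [lTau, LinearMap.add_apply, LinearMap.sum_apply, lmE_tmul, lmO_tmul, map_add,
      map_sum, one_mul, LinearMap.rTensor_tmul, ΔA_inc_mul, ΔA_sig]
    congr 2
    have := ΔA_tau_mul n c
    simpa only [lTau, LinearMap.add_apply, LinearMap.sum_apply] using
      congrArg (fun z => z ⊗ₜ[ZMod 3] d) this

/-- **coassociativity of the dual Steenrod algebra** -/
theorem ΔA_coassoc : (TensorProduct.assoc (ZMod 3) AS AS AS).toLinearMap ∘ₗ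
    (ΔA.rTensor AS) ∘ₗ ΔA = (ΔA.lTensor AS) ∘ₗ ΔA := by
  apply AS_hom_ext
  · intro x
    simp only [LinearMap.comp_apply, ΔA_inc]
    have h := LinearMap.congr_fun ΔP_coassoc x
    simp only [LinearMap.comp_apply, AlgHom.toLinearMap_apply] at h
    have h2 : ∀ u : PS ⊗[ZMod 3] PS, ΔA.lTensor AS
        (TensorProduct.map inc.toLinearMap inc.toLinearMap u) =
        TensorProduct.map inc.toLinearMap (TensorProduct.map inc.toLinearMap inc.toLinearMap)
          (ΔP.toLinearMap.lTensor PS u) := by
      intro u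
      induction u using TensorProduct.induction_on with
      | zero => simp
      | add u v hu hv => simp only [map_add, hu, hv]
      | tmul a b =>
        simp only [TensorProduct.map_tmul, LinearMap.lTensor_tmul, AlgHom.toLinearMap_apply,
          ΔA_inc]
    have h3 : ∀ u : PS ⊗[ZMod 3] PS, ΔA.rTensor AS
        (TensorProduct.map inc.toLinearMap inc.toLinearMap u) =
        TensorProduct.map (TensorProduct.map inc.toLinearMap inc.toLinearMap) inc.toLinearMap
          (ΔP.toLinearMap.rTensor PS u) := by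
      intro u
      induction u using TensorProduct.induction_on with
      | zero => simp
      | add u v hu hv => simp only [map_add, hu, hv]
      | tmul a b =>
        simp only [TensorProduct.map_tmul, LinearMap.rTensor_tmul, AlgHom.toLinearMap_apply,
          ΔA_inc]
    have h4 : ∀ u : (PS ⊗[ZMod 3] PS) ⊗[ZMod 3] PS, TensorProduct.assoc (ZMod 3) AS AS AS
        (TensorProduct.map (TensorProduct.map inc.toLinearMap inc.toLinearMap)
          inc.toLinearMap u) =
        TensorProduct.map inc.toLinearMap (TensorProduct.map inc.toLinearMap inc.toLinearMap)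
          (TensorProduct.assoc (ZMod 3) PS PS PS u) := by
      intro u
      exact LinearMap.congr_fun (TensorProduct.map_map_comp_assoc_eq inc.toLinearMap
        inc.toLinearMap inc.toLinearMap).symm u
    rw [h2, h3, ← h]
    exact h4 _
  · intro n a ha
    simp only [LinearMap.comp_apply, LinearEquiv.coe_coe] at ha ⊢
    rw [ΔA_tau_mul, lTensor_lTau, rTensor_lTau, ha]

/-- the counit of `A_*` -/
noncomputable def epA : AS →ₗ[ZMod 3] ZMod 3 := epP.toLinearMap ∘ₗ prj

theorem epA_inc (x : PS) : epA (inc x) = epP x := by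
  simp [epA, prj_inc]

theorem epA_tau_mul (n : ℕ) (a : AS) : epA (tau n * a) = 0 := by
  simp [epA, prj_tau_mul]

theorem prj_inc_mul (x : PS) (a : AS) : prj (inc x * a) = x * prj a := by
  induction a using TensorProduct.induction_on with
  | zero => simp
  | add a b ha hb => rw [mul_add, map_add, map_add, mul_add, ha, hb]
  | tmul t y =>
    have : inc x * (t ⊗ₜ[ZMod 3] y : AS) = t ⊗ₜ[ZMod 3] (x * y) := by
      simp [inc, Algebra.TensorProduct.tmul_mul_tmul]
    rw [this, prj_tmul, prj_tmul, mul_smul_comm]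

theorem epA_inc_mul (x : PS) (a : AS) : epA (inc x * a) = epP x * epA a := by
  simp [epA, prj_inc_mul]

theorem prj_sig (a : AS) : prj (sig a) = prj a := by
  have h : prj ∘ₗ sig.toLinearMap = prj := by
    apply AS_hom_ext
    · intro x
      simp [sig_inc]
    · intro n a _
      simp only [LinearMap.comp_apply, AlgHom.toLinearMap_apply, map_mul, sig_tau',
        smul_mul_assoc, map_smul, prj_tau_mul, smul_zero]
  exact LinearMap.congr_fun h a

theorem epA_sig (a : AS) : epA (sig a) = epA a := by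
  simp [epA, prj_sig]

theorem epA_left : epA.rTensor AS ∘ₗ ΔA = TensorProduct.mk (ZMod 3) (ZMod 3) AS 1 := by
  apply AS_hom_ext
  · intro x
    have h := LinearMap.congr_fun epP_left x
    simp only [LinearMap.comp_apply, ΔA_inc, AlgHom.toLinearMap_apply] at h ⊢
    have h2 : ∀ u : PS ⊗[ZMod 3] PS, epA.rTensor AS
        (TensorProduct.map inc.toLinearMap inc.toLinearMap u) =
        TensorProduct.map LinearMap.id inc.toLinearMap (epP.toLinearMap.rTensor PS u) := by
      intro u
      induction u using TensorProduct.induction_on with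
      | zero => simp
      | add u v hu hv => simp only [map_add, hu, hv]
      | tmul a b =>
        simp only [TensorProduct.map_tmul, LinearMap.rTensor_tmul, AlgHom.toLinearMap_apply,
          epA_inc, LinearMap.id_apply]
    rw [h2, h]
    rfl
  · intro n a ha
    simp only [LinearMap.comp_apply] at ha ⊢
    have key : ∀ z : AS ⊗[ZMod 3] AS, epA.rTensor AS (lTau n z) =
        (LinearMap.mulLeft (ZMod 3) (tau n)).lTensor (ZMod 3) (epA.rTensor AS z) := by
      intro z
      induction z using TensorProduct.induction_on with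
      | zero => simp
      | add z w hz hw => simp only [map_add, hz, hw]
      | tmul c d =>
        simp only [lTau, LinearMap.add_apply, LinearMap.sum_apply, lmE_tmul, lmO_tmul, map_add,
          map_sum, one_mul, LinearMap.rTensor_tmul, LinearMap.lTensor_tmul, epA_tau_mul,
          TensorProduct.zero_tmul, zero_add, epA_inc_mul, epA_sig, LinearMap.mulLeft_apply]
        rw [Finset.sum_range_succ, Finset.sum_eq_zero]
        · simp [xi]
        · intro i hi
          have : n - i ≠ 0 := by
            have := Finset.mem_range.1 hi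
            omega
          rw [map_pow, epP_xi, if_neg this, zero_pow (by positivity), zero_mul,
            TensorProduct.zero_tmul]
    rw [ΔA_tau_mul, key, ha]
    simp

theorem epA_right : epA.lTensor AS ∘ₗ ΔA = (TensorProduct.mk (ZMod 3) AS (ZMod 3)).flip 1 := by
  apply AS_hom_ext
  · intro x
    have h := LinearMap.congr_fun epP_right x
    simp only [LinearMap.comp_apply, ΔA_inc, AlgHom.toLinearMap_apply] at h ⊢
    have h2 : ∀ u : PS ⊗[ZMod 3] PS, epA.lTensor AS
        (TensorProduct.map inc.toLinearMap inc.toLinearMap u) =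
        TensorProduct.map inc.toLinearMap LinearMap.id (epP.toLinearMap.lTensor PS u) := by
      intro u
      induction u using TensorProduct.induction_on with
      | zero => simp
      | add u v hu hv => simp only [map_add, hu, hv]
      | tmul a b =>
        simp only [TensorProduct.map_tmul, LinearMap.lTensor_tmul, AlgHom.toLinearMap_apply,
          epA_inc, LinearMap.id_apply]
    rw [h2, h]
    rfl
  · intro n a ha
    simp only [LinearMap.comp_apply] at ha ⊢
    have key : ∀ z : AS ⊗[ZMod 3] AS, epA.lTensor AS (lTau n z) =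
        (LinearMap.mulLeft (ZMod 3) (tau n)).rTensor (ZMod 3) (epA.lTensor AS z) := by
      intro z
      induction z using TensorProduct.induction_on with
      | zero => simp
      | add z w hz hw => simp only [map_add, hz, hw]
      | tmul c d =>
        simp only [lTau, LinearMap.add_apply, LinearMap.sum_apply, lmE_tmul, lmO_tmul, map_add,
          map_sum, one_mul, LinearMap.rTensor_tmul, LinearMap.lTensor_tmul, epA_tau_mul,
          TensorProduct.tmul_zero, Finset.sum_const_zero, add_zero, LinearMap.mulLeft_apply]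
    rw [ΔA_tau_mul, key, ha]
    simp

/-- `P_*` is a coalgebra -/
noncomputable abbrev coalgP : Coalgebra (ZMod 3) PS where
  comul := ΔP.toLinearMap
  counit := epP.toLinearMap
  coassoc := ΔP_coassoc
  rTensor_counit_comp_comul := epP_left
  lTensor_counit_comp_comul := epP_right

/-- the dual Steenrod algebra `A_*` is a coalgebra -/
noncomputable abbrev coalgA : Coalgebra (ZMod 3) AS where
  comul := ΔA
  counit := epA
  coassoc := ΔA_coassoc
  rTensor_counit_comp_comul := epA_left
  lTensor_counit_comp_comul := epA_right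

end Vale.Agent.P236.H271
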