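import Vale.Agent.P236.Cob

/-!
# P236: the dual Steenrod algebra at the prime 3

`A_* = E(τ_0, τ_1, ...) ⊗ P_*` with Milnor's coproduct
`Δ τ_n = τ_n ⊗ 1 + ∑_{i ≤ n} ξ_{n-i}^(3^i) ⊗ τ_i`, `Δ ξ_n = ∑_{i ≤ n} ξ_{n-i}^(3^i) ⊗ ξ_i`,
multiplicative for the product `(a ⊗ b) (c ⊗ d) = (-1)^(|b| |c|) a c ⊗ b d` of `A_* ⊗ A_*`.
-/

namespace Vale.Agent.P236.H271

open scoped TensorProduct

/-- the exterior algebra on `τ_0, τ_1, ...` -/
abbrev ET : Type := ExteriorAlgebra (ZMod 3) (ℕ →₀ ZMod 3)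

/-- the dual Steenrod algebra `A_* = E(τ_0, τ_1, ...) ⊗ F_3[ξ_1, ξ_2, ...]`, as an algebra -/
abbrev AS : Type := ET ⊗[ZMod 3] PS

/-- `τ_n` -/
noncomputable def tau (n : ℕ) : AS :=
  ExteriorAlgebra.ι (ZMod 3) (Finsupp.single n (1 : ZMod 3)) ⊗ₜ[ZMod 3] (1 : PS)

/-- the inclusion `P_* → A_*` -/
noncomputable def inc : PS →ₐ[ZMod 3] AS := Algebra.TensorProduct.includeRight

/-- `σ a = (-1)^|a| a` -/
noncomputable def sig : AS →ₐ[ZMod 3] AS :=
  Algebra.TensorProduct.map (ExteriorAlgebra.map (-LinearMap.id)) (AlgHom.id (ZMod 3) PS)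

/-- the left multiplication with `a ⊗ b`, for even `b`: `c ⊗ d ↦ a c ⊗ b d` -/
noncomputable def lmE (a b : AS) : Module.End (ZMod 3) (AS ⊗[ZMod 3] AS) :=
  TensorProduct.map (LinearMap.mulLeft (ZMod 3) a) (LinearMap.mulLeft (ZMod 3) b)

/-- the left multiplication with `a ⊗ b`, for odd `b`: `c ⊗ d ↦ (-1)^|c| a c ⊗ b d` -/
noncomputable def lmO (a b : AS) : Module.End (ZMod 3) (AS ⊗[ZMod 3] AS) :=
  TensorProduct.map ((LinearMap.mulLeft (ZMod 3) a).comp sig.toLinearMap)
    (LinearMap.mulLeft (ZMod 3) b)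

/-- the left multiplication with `τ_n ⊗ 1 + ∑_{i ≤ n} ξ_{n-i}^(3^i) ⊗ τ_i` -/
noncomputable def lTau (n : ℕ) : Module.End (ZMod 3) (AS ⊗[ZMod 3] AS) :=
  lmE (tau n) 1 + ∑ i ∈ Finset.range (n + 1), lmO (inc (xi (n - i) ^ 3 ^ i)) (tau i)

theorem lmE_tmul (a b c d : AS) : lmE a b (c ⊗ₜ d) = (a * c) ⊗ₜ (b * d) := rfl

theorem lmO_tmul (a b c d : AS) : lmO a b (c ⊗ₜ d) = (a * sig c) ⊗ₜ (b * d) := rfl

theorem sig_inc (x : PS) : sig (inc x) = inc x := by
  simp [sig, inc]

theorem sig_tau (n : ℕ) : sig (tau n) =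
    (-ExteriorAlgebra.ι (ZMod 3) (Finsupp.single n (1 : ZMod 3))) ⊗ₜ[ZMod 3] (1 : PS) := by
  simp [sig, tau]

theorem tau_add_sig (n : ℕ) : tau n + sig (tau n) = 0 := by
  rw [sig_tau, tau, ← TensorProduct.add_tmul, add_neg_cancel, TensorProduct.zero_tmul]

theorem sig_sig (a : AS) : sig (sig a) = a := by
  have h : sig.comp sig = AlgHom.id (ZMod 3) AS := by
    apply Algebra.TensorProduct.ext
    · apply ExteriorAlgebra.hom_ext
      ext v
      simp [sig]
    · ext v
      simp [sig]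
  exact DFunLike.congr_fun h a

theorem inc_comm (x : PS) (a : AS) : inc x * a = a * inc x := by
  induction a using TensorProduct.induction_on with
  | zero => simp
  | tmul t y => simp [inc, Algebra.TensorProduct.tmul_mul_tmul, mul_comm]
  | add a b ha hb => rw [mul_add, add_mul, ha, hb]

theorem tau_anti (m n : ℕ) : tau m * tau n + tau n * tau m = 0 := by
  simp only [tau, Algebra.TensorProduct.tmul_mul_tmul, mul_one]
  rw [← TensorProduct.add_tmul, ExteriorAlgebra.ι_add_mul_swap, TensorProduct.zero_tmul]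

theorem lmE_lmE (a b c d : AS) : lmE a b * lmE c d = lmE (a * c) (b * d) := by
  refine TensorProduct.ext' fun x y => ?_
  simp only [Module.End.mul_apply, lmE_tmul, mul_assoc]

theorem lmE_lmO (a b c d : AS) : lmE a b * lmO c d = lmO (a * c) (b * d) := by
  refine TensorProduct.ext' fun x y => ?_
  simp only [Module.End.mul_apply, lmE_tmul, lmO_tmul, mul_assoc]

theorem lmO_lmE (a b c d : AS) : lmO a b * lmE c d = lmO (a * sig c) (b * d) := by
  refine TensorProduct.ext' fun x y => ?_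
  simp only [Module.End.mul_apply, lmE_tmul, lmO_tmul, mul_assoc, map_mul]

theorem lmO_lmO (a b c d : AS) : lmO a b * lmO c d = lmE (a * sig c) (b * d) := by
  refine TensorProduct.ext' fun x y => ?_
  simp only [Module.End.mul_apply, lmE_tmul, lmO_tmul, mul_assoc, map_mul, sig_sig]

theorem lmE_add_left (a a' b : AS) : lmE (a + a') b = lmE a b + lmE a' b := by
  refine TensorProduct.ext' fun x y => ?_
  simp only [lmE_tmul, LinearMap.add_apply, add_mul, TensorProduct.add_tmul]

theorem lmE_add_right (a b b' : AS) : lmE a (b + b') = lmE a b + lmE a b' := by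
  refine TensorProduct.ext' fun x y => ?_
  simp only [lmE_tmul, LinearMap.add_apply, add_mul, TensorProduct.tmul_add]

theorem lmO_add_left (a a' b : AS) : lmO (a + a') b = lmO a b + lmO a' b := by
  refine TensorProduct.ext' fun x y => ?_
  simp only [lmO_tmul, LinearMap.add_apply, add_mul, TensorProduct.add_tmul]

@[simp] theorem lmE_zero_left (b : AS) : lmE 0 b = 0 := by
  refine TensorProduct.ext' fun x y => ?_
  simp [lmE_tmul]

@[simp] theorem lmE_zero_right (a : AS) : lmE a 0 = 0 := by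
  refine TensorProduct.ext' fun x y => ?_
  simp [lmE_tmul]

@[simp] theorem lmO_zero_left (b : AS) : lmO 0 b = 0 := by
  refine TensorProduct.ext' fun x y => ?_
  simp [lmO_tmul]

/-- `T_m T_n + T_n T_m = 0` -/
theorem anti_EE (m n : ℕ) :
    lmE (tau m) 1 * lmE (tau n) 1 + lmE (tau n) 1 * lmE (tau m) 1 = 0 := by
  rw [lmE_lmE, lmE_lmE, mul_one, ← lmE_add_left, tau_anti, lmE_zero_left]

theorem anti_EO (m i : ℕ) (x : PS) :
    lmE (tau m) 1 * lmO (inc x) (tau i) + lmO (inc x) (tau i) * lmE (tau m) 1 = 0 := by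
  rw [lmE_lmO, lmO_lmE, mul_one, one_mul, ← lmO_add_left, inc_comm, ← add_mul, tau_add_sig,
    zero_mul, lmO_zero_left]

theorem anti_OO (i j : ℕ) (x y : PS) :
    lmO (inc x) (tau i) * lmO (inc y) (tau j) + lmO (inc y) (tau j) * lmO (inc x) (tau i) = 0 := by
  rw [lmO_lmO, lmO_lmO, sig_inc, sig_inc, inc_comm y, ← lmE_add_right, tau_anti, lmE_zero_right]

theorem lTau_anti (m n : ℕ) : lTau m * lTau n + lTau n * lTau m = 0 := by
  have h : lTau m * lTau n + lTau n * lTau m =
      (lmE (tau m) 1 * lmE (tau n) 1 + lmE (tau n) 1 * lmE (tau m) 1) +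
      (∑ i ∈ Finset.range (n + 1), (lmE (tau m) 1 * lmO (inc (xi (n - i) ^ 3 ^ i)) (tau i) +
        lmO (inc (xi (n - i) ^ 3 ^ i)) (tau i) * lmE (tau m) 1)) +
      (∑ i ∈ Finset.range (m + 1), (lmE (tau n) 1 * lmO (inc (xi (m - i) ^ 3 ^ i)) (tau i) +
        lmO (inc (xi (m - i) ^ 3 ^ i)) (tau i) * lmE (tau n) 1)) +
      (∑ i ∈ Finset.range (m + 1), ∑ j ∈ Finset.range (n + 1),
        (lmO (inc (xi (m - i) ^ 3 ^ i)) (tau i) * lmO (inc (xi (n - j) ^ 3 ^ j)) (tau j) +
        lmO (inc (xi (n - j) ^ 3 ^ j)) (tau j) * lmO (inc (xi (m - i) ^ 3 ^ i)) (tau i))) := by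
    simp only [lTau, add_mul, mul_add, Finset.sum_add_distrib, Finset.sum_mul, Finset.mul_sum]
    rw [Finset.sum_comm (s := Finset.range (n + 1)) (t := Finset.range (m + 1))]
    abel
  rw [h, anti_EE]
  simp only [anti_EO, anti_OO, Finset.sum_const_zero, add_zero]

/-- the action `v ↦ ∑ v_n L_n` -/
noncomputable def lV : (ℕ →₀ ZMod 3) →ₗ[ZMod 3] Module.End (ZMod 3) (AS ⊗[ZMod 3] AS) :=
  Finsupp.linearCombination (ZMod 3) lTau

theorem lV_sq (v : ℕ →₀ ZMod 3) : lV v * lV v = 0 := by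
  have h : lV v * lV v + lV v * lV v = 0 := by
    have e : lV v = ∑ n ∈ v.support, v n • lTau n := by
      simp [lV, Finsupp.linearCombination_apply, Finsupp.sum]
    have h1 : lV v * lV v = ∑ m ∈ v.support, ∑ n ∈ v.support, (v m * v n) • (lTau m * lTau n) := by
      rw [e, Finset.sum_mul_sum]
      refine Finset.sum_congr rfl fun m _ => Finset.sum_congr rfl fun n _ => ?_
      rw [smul_mul_smul_comm]
    have h2 : lV v * lV v = ∑ m ∈ v.support, ∑ n ∈ v.support, (v m * v n) • (lTau n * lTau m) := by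
      rw [h1, Finset.sum_comm]
      refine Finset.sum_congr rfl fun m _ => Finset.sum_congr rfl fun n _ => ?_
      rw [mul_comm]
    conv_lhs => rw [h1]
    conv_lhs => enter [2]; rw [← h1, h2]
    rw [← Finset.sum_add_distrib]
    refine Finset.sum_eq_zero fun m _ => ?_
    rw [← Finset.sum_add_distrib]
    refine Finset.sum_eq_zero fun n _ => ?_
    rw [← smul_add, lTau_anti, smul_zero]
  have h3 : (2 : ZMod 3) • (lV v * lV v) = 0 := by rw [two_smul]; exact h
  have h4 : (2 : ZMod 3) • ((2 : ZMod 3) • (lV v * lV v)) = 0 := by rw [h3, smul_zero]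
  rw [smul_smul] at h4
  have h5 : (2 : ZMod 3) * 2 = 1 := by decide
  rwa [h5, one_smul] at h4

/-- the action of `E(τ_0, τ_1, ...)` on `A_* ⊗ A_*` through `Δ` -/
noncomputable def lE : ET →ₐ[ZMod 3] Module.End (ZMod 3) (AS ⊗[ZMod 3] AS) :=
  ExteriorAlgebra.lift (ZMod 3) ⟨lV, lV_sq⟩

/-- **the coproduct of the dual Steenrod algebra** : `Δ (t ⊗ x) = Δ t * Δ x` -/
noncomputable def ΔA : AS →ₗ[ZMod 3] AS ⊗[ZMod 3] AS :=
  TensorProduct.lift ((LinearMap.lcomp (ZMod 3) (AS ⊗[ZMod 3] AS)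
    ((TensorProduct.map inc.toLinearMap inc.toLinearMap).comp ΔP.toLinearMap)).comp
      lE.toLinearMap)

theorem ΔA_tmul (t : ET) (x : PS) :
    ΔA (t ⊗ₜ x) = lE t (TensorProduct.map inc.toLinearMap inc.toLinearMap (ΔP x)) := rfl

/-- the coproduct on `P_*` -/
theorem ΔA_inc (x : PS) :
    ΔA (inc x) = TensorProduct.map inc.toLinearMap inc.toLinearMap (ΔP x) := by
  have : inc x = (1 : ET) ⊗ₜ[ZMod 3] x := rfl
  rw [this, ΔA_tmul, map_one]
  rfl

/-- the coproduct of `τ_n a` -/
theorem ΔA_tau_mul (n : ℕ) (a : AS) : ΔA (tau n * a) = lTau n (ΔA a) := by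
  induction a using TensorProduct.induction_on with
  | zero => simp
  | tmul t x =>
    rw [tau, Algebra.TensorProduct.tmul_mul_tmul, one_mul, ΔA_tmul, ΔA_tmul, map_mul]
    simp [lE, lV]
  | add a b ha hb => rw [mul_add, map_add, map_add, map_add, ha, hb]

/-- Milnor's formula -/
theorem ΔA_tau (n : ℕ) : ΔA (tau n) = tau n ⊗ₜ 1 +
    ∑ i ∈ Finset.range (n + 1), inc (xi (n - i) ^ 3 ^ i) ⊗ₜ tau i := by
  have h := ΔA_tau_mul n 1
  have h1 : ΔA 1 = 1 ⊗ₜ 1 := by
    have := ΔA_inc 1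
    rw [map_one inc, map_one ΔP] at this
    rw [this, Algebra.TensorProduct.one_def, TensorProduct.map_tmul]
    simp
  rw [mul_one, h1] at h
  rw [h, lTau]
  simp [lmE_tmul, lmO_tmul, LinearMap.sum_apply]

/-- Milnor's formula -/
theorem ΔA_xi (n : ℕ) : ΔA (inc (xi n)) =
    ∑ i ∈ Finset.range (n + 1), inc (xi (n - i) ^ 3 ^ i) ⊗ₜ inc (xi i) := by
  rw [ΔA_inc]
  have h : ΔP (xi n) = ∑ i ∈ Finset.range (n + 1), (xi (n - i) ^ 3 ^ i) ⊗ₜ[ZMod 3] (xi i) := by
    cases n with
    | zero => simp [xi, Algebra.TensorProduct.one_def]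
    | succ n => simp [xi, ΔP]
  rw [h, map_sum]
  rfl

/-- the projection `A_* → P_*` that kills all `τ_n` -/
noncomputable def prj : AS →ₗ[ZMod 3] PS :=
  (Algebra.TensorProduct.lid (ZMod 3) PS).toLinearMap.comp
    (TensorProduct.map (ExteriorAlgebra.algebraMapInv
      (R := ZMod 3) (M := ℕ →₀ ZMod 3)).toLinearMap LinearMap.id)

theorem prj_tmul (t : ET) (x : PS) :
    prj (t ⊗ₜ x) = ExteriorAlgebra.algebraMapInv t • x := by
  simp [prj]

theorem prj_inc (x : PS) : prj (inc x) = x := by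
  have : inc x = (1 : ET) ⊗ₜ[ZMod 3] x := rfl
  rw [this, prj_tmul, map_one, one_smul]

theorem prj_tau_mul (n : ℕ) (a : AS) : prj (tau n * a) = 0 := by
  induction a using TensorProduct.induction_on with
  | zero => simp
  | tmul t x =>
    rw [tau, Algebra.TensorProduct.tmul_mul_tmul, prj_tmul, map_mul]
    simp [ExteriorAlgebra.algebraMapInv]
  | add a b ha hb => rw [mul_add, map_add, ha, hb, add_zero]

theorem coMap_inc : CoMap ΔP.toLinearMap (1 : PS) ΔA (1 : AS) inc.toLinearMap where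
  unit := by simp
  comul x := by
    simpa using (ΔA_inc x).symm

theorem prj_lTau (n : ℕ) (z : AS ⊗[ZMod 3] AS) :
    TensorProduct.map prj prj (lTau n z) = 0 := by
  induction z using TensorProduct.induction_on with
  | zero => simp
  | tmul c d =>
    simp only [lTau, LinearMap.add_apply, LinearMap.sum_apply, lmE_tmul, lmO_tmul, map_add,
      map_sum, TensorProduct.map_tmul, prj_tau_mul, TensorProduct.zero_tmul,
      TensorProduct.tmul_zero, Finset.sum_const_zero, add_zero]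
  | add a b ha hb => rw [map_add, map_add, ha, hb, add_zero]

theorem prj_lE (t : ET) (z : AS ⊗[ZMod 3] AS) :
    TensorProduct.map prj prj (lE t z) =
      ExteriorAlgebra.algebraMapInv t • TensorProduct.map prj prj z := by
  induction t using ExteriorAlgebra.induction generalizing z with
  | algebraMap r => simp [Module.algebraMap_end_apply]
  | ι v =>
    have : lE (ExteriorAlgebra.ι (ZMod 3) v) = ∑ n ∈ v.support, v n • lTau n := by
      simp [lE, lV, Finsupp.linearCombination_apply, Finsupp.sum]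
    rw [this]
    simp [LinearMap.sum_apply, prj_lTau, ExteriorAlgebra.algebraMapInv]
  | mul a b ha hb => rw [map_mul, Module.End.mul_apply, ha, hb, map_mul, mul_smul]
  | add a b ha hb => rw [map_add, LinearMap.add_apply, map_add, ha, hb, map_add, add_smul]

theorem coMap_prj : CoMap ΔA (1 : AS) ΔP.toLinearMap (1 : PS) prj where
  unit := by
    have := prj_inc 1
    rwa [map_one] at this
  comul a := by
    induction a using TensorProduct.induction_on with
    | zero => simp
    | tmul t x =>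
      rw [ΔA_tmul, prj_lE, prj_tmul, map_smul]
      congr 1
      have h : ∀ z : PS ⊗[ZMod 3] PS, TensorProduct.map prj prj
          (TensorProduct.map inc.toLinearMap inc.toLinearMap z) = z := by
        intro z
        induction z using TensorProduct.induction_on with
        | zero => simp
        | tmul c d => simp [prj_inc]
        | add a b ha hb => rw [map_add, map_add, ha, hb]
      rw [h]
      rfl
    | add a b ha hb => rw [map_add, map_add, map_add, map_add, ha, hb]

end Vale.Agent.P236.H271
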